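import Crest.Agent.X212.Rg3.Set

/-!
# Row 212, layer T, R1 (helper3), part 3: `rung1 : IncStmt → LevStmt → AnnRec → Rung1Stmt`
-/

set_option autoImplicit false

open Set Metric Topology Filter Crest.Agent.R096.Ce_537 Crest.Agent.X212.Prd34
  Crest.Agent.X212.Lev33 Crest.Agent.X212.Lad50 Crest.Agent.X212.Srf12

namespace Crest.Agent.X212.Rg3

variable {H : V → V} {c δ ε : ℝ} {A B : Set V}

theorem lin_coord {n : ℕ} (i : Fin n) : IsLinearMap ℝ fun x : Fin n → ℝ => x i :=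
  ⟨fun _ _ => rfl, fun _ _ => rfl⟩

theorem ad0 (y : P) (r : ℝ) : (y + ![0, r] : P) 0 = y 0 := add_zero _

theorem ad1 (y : P) (r : ℝ) : (y + ![0, r] : P) 1 = y 1 + r := rfl

/-- the collar at the wall `s = ±1` is connected to the circle -/
theorem collar_iff (h : Per {1} H) (s : Spl (UU H c δ) A B) (d : Std H c δ ε A B) {C : Set V}
    (hC : Clop (A ∩ B ∪ (GG H c (-1) ∪ GG H c 1)) C) {t σ : ℝ} (ht : |t| = 1) (h1 : 1 - ε ≤ σ)
    (h2 : σ ≤ 1) : H ![t * σ, 0, c] ∈ C ↔ H ![t, 0, c] ∈ C := by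
  have hc := h.cont
  have p : IsPreconnected ((fun a : ℝ => H ![t * a, 0, c]) '' Icc (1 - ε) 1) :=
    isPreconnected_Icc.image _ (by fun_prop)
  have q : (fun a : ℝ => H ![t * a, 0, c]) '' Icc (1 - ε) 1 ⊆
      A ∩ B ∪ (GG H c (-1) ∪ GG H c 1) := by
    rintro _ ⟨a, ha, rfl⟩
    have e : |(![t * a, 0, c] : V) 0| = a := by
      show |t * a| = a
      rw [abs_mul, ht, one_mul, abs_of_nonneg (by linarith [ha.1, d.le])]
    exact (d.collar h s (by rw [e]; exact ha.1)).2 ⟨by rw [e]; exact ha.2, rfl⟩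
  have m1 : H ![t * σ, 0, c] ∈ (fun a : ℝ => H ![t * a, 0, c]) '' Icc (1 - ε) 1 :=
    ⟨σ, ⟨h1, h2⟩, rfl⟩
  have m2 : H ![t, 0, c] ∈ (fun a : ℝ => H ![t * a, 0, c]) '' Icc (1 - ε) 1 :=
    ⟨1, ⟨by linarith [d.pos], le_rfl⟩, by simp⟩
  exact ⟨fun k => hC.subset p q m1 k m2, fun k => hC.subset p q m2 k m1⟩

/-- the part of the surface at the first wall reaches the second wall -/
theorem reach (h : Per {1} H) (s : Spl (UU H c δ) A B) (d : Std H c δ ε A B) {C : Set V}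
    (hC : Clop (A ∩ B ∪ (GG H c (-1) ∪ GG H c 1)) C) (h1 : H ![-1, 0, c] ∈ C) :
    H ![1, 0, c] ∈ C := by
  classical
  by_contra h2
  have hc := h.cont
  have e0 := d.pos
  have e1 := d.le
  have e2 := d.lt
  have hC' : Clop (A ∩ B) (C ∩ (A ∩ B)) := ⟨inter_subset_right, fun x hx => by
    filter_upwards [hC.lc.mono subset_union_left x hx, self_mem_nhdsWithin] with y k1 k2
    rw [mem_inter_iff, mem_inter_iff x, k1, and_iff_left k2, and_iff_left hx]⟩
  let sd : V → Z2 := fun x => if x ∈ B then Multiplicative.ofAdd 1 else 1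
  have sa : ∀ x ∈ UU H c δ \ B, sd x = 1 := fun x hx => if_neg hx.2
  have sb : ∀ x ∈ B, sd x = Multiplicative.ofAdd 1 := fun x hx => if_pos hx
  have co := cross s.union s.clA s.clB hC' sa sb
  let F : ℝ × ℝ → V := fun p =>
    ![(1 - ε / 2) * (2 * p.1 - 1), 0, c + (δ - ε / 2) * (2 * p.2 - 1)]
  have cF : Continuous F := by fun_prop
  have b1 : ∀ a t : ℝ, 0 < a → t ∈ Icc (0 : ℝ) 1 → |a * (2 * t - 1)| ≤ a := fun a t ha ht =>
    abs_le.2 ⟨by nlinarith [ht.1], by nlinarith [ht.2]⟩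
  have mU : ∀ p ∈ Icc (0 : ℝ) 1 ×ˢ Icc (0 : ℝ) 1, H (F p) ∈ UU H c δ := by
    intro p hp
    refine (mem_UU h).2 ⟨(b1 _ _ (by linarith) hp.1).trans_lt (by linarith), ?_⟩
    show |c + _ - c| < δ
    rw [add_sub_cancel_left]
    exact (b1 _ _ (by linarith) hp.2).trans_lt (by linarith)
  have sq := hol_square co (F := fun p => H (F p)) (hc.comp cF).continuousOn mU
  have top : ∀ a, H (F (a, 1)) ∉ B := fun a k => by
    have : c + (δ - ε / 2) * (2 * 1 - 1) ≤ c + δ - ε := d.upB _ k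
    linarith
  have bot : ∀ a, H (F (a, 0)) ∉ A := fun a k => by
    have : c - δ + ε ≤ c + (δ - ε / 2) * (2 * 0 - 1) := d.lowA _ k
    linarith
  have wall : ∀ a t σ : ℝ, |σ| = 1 → 2 * a - 1 = σ → H (F (a, t)) ∈ A ∩ B →
      F (a, t) = ![σ * (1 - ε / 2), 0, c] := by
    intro a t σ k1 k2 k3
    have e : F (a, t) 0 = σ * (1 - ε / 2) := by
      show (1 - ε / 2) * (2 * a - 1) = _
      rw [k2, mul_comm]
    have := (d.collar h s (z := F (a, t)) (by
      rw [e, abs_mul, k1, one_mul, abs_of_pos (by linarith)]; linarith)).1 (Or.inl k3)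
    ext i; fin_cases i
    · exact e
    · rfl
    · exact this.2
  have one : ∀ γ : ℝ → V, Continuous γ → (∀ t, γ t ∉ C ∩ (A ∩ B)) →
      hol (fun x y => if x ∈ C ∩ (A ∩ B) then (sd x)⁻¹ * sd y else 1) γ = 1 := by
    intro γ k1 k2
    rw [hol_prim (prim_cross_one (T := (C ∩ (A ∩ B))ᶜ) fun _ k => k) k1.continuousOn
      fun t _ => k2 t]
    simp
  rw [one (fun a => H (F (a, 1))) (by fun_prop) (fun a k => top a k.2.2),
    one (fun a => H (F (a, 0))) (by fun_prop) (fun a k => bot a k.2.1),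
    one (fun t => H (F (1, t))) (by fun_prop) (fun t k => h2 (by
      have := wall 1 t 1 (by simp) (by norm_num) k.2
      exact (collar_iff h s d hC (t := 1) (σ := 1 - ε / 2) (by simp) (by linarith)
        (by linarith)).1 (this ▸ k.1))),
    hol_prim (prim_cross_sd (T := (fun t => H (F (0, t))) '' Icc 0 1) s sa sb
      (by rintro _ ⟨t, ht, rfl⟩; exact mU _ ⟨by simp, ht⟩)
      (by
        rintro _ ⟨t, -, rfl⟩ k
        refine ⟨?_, k⟩
        show H (F (0, t)) ∈ C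
        rw [wall 0 t (-1) (by simp) (by norm_num) k]
        exact (collar_iff h s d hC (t := -1) (σ := 1 - ε / 2) (by simp) (by linarith)
          (by linarith)).2 h1))
      (by fun_prop) (mapsTo_image _ _),
    sa _ ⟨mU _ ⟨by simp, by simp⟩, top 0⟩,
    sb _ ((s.union.superset (mU (0, 0) ⟨by simp, by simp⟩)).resolve_left (bot 0))] at sq
  revert sq
  decide

/-- cocycles on the cover of the compact surface -/
theorem tr_bar {G : Type*} [Group G] (h : Per {1} H) (s : Spl (UU H c δ) A B)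
    (d : Std H c δ ε A B)
    (inc : ∀ x (p : Path x x), (∀ t, p t ∈ A ∩ B) → NH (UU H c δ) p → NH (A ∩ B) p)
    {k : V → V → G} (hk : Coc (A ∩ B ∪ (GG H c (-1) ∪ GG H c 1)) k) :
    Tr (H ⁻¹' (A ∩ B ∪ (GG H c (-1) ∪ GG H c 1))) fun x y => k (H x) (H y) := by
  have e0 := d.pos
  have e1 := d.le
  have cv : Convex ℝ {x : V | |x 0| < 1 ∧ |x 2 - c| < δ} := by
    have e : {x : V | |x 0| < 1 ∧ |x 2 - c| < δ} = (fun x : V => x 0) ⁻¹' Ioo (-1) 1 ∩
        (fun x : V => x 2) ⁻¹' Ioo (c - δ) (c + δ) := by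
      ext x
      simp only [mem_ofPred_eq, mem_inter_iff, mem_preimage, mem_Ioo, abs_lt]
      constructor <;> rintro ⟨k1, k2, k3⟩ <;> exact ⟨k1, by linarith, by linarith⟩
    rw [e]
    exact ((convex_Ioo (-1 : ℝ) 1).is_linear_preimage (lin_coord 0)).inter
      ((convex_Ioo (c - δ) (c + δ)).is_linear_preimage (lin_coord (n := 3) 2))
  obtain ⟨b, hb⟩ := tr_cover h s.lcv.lpc cv (fun z hz => (mem_UU h).1 (s.subA hz.1))
    (fun z hz => (mem_UU h).2 hz) inc (hk.mono subset_union_left)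
  let R : V × ℝ → V := fun p =>
    ![max (-(1 - ε + ε * p.2)) (min (1 - ε + ε * p.2) (p.1 0)), p.1 1, p.1 2]
  have cR : Continuous R := by fun_prop
  have Rid : ∀ z t, |z 0| ≤ 1 - ε + ε * t → R (z, t) = z := by
    intro z t k
    ext i; fin_cases i
    · show max _ (min _ (z 0)) = z 0
      rw [min_eq_right (abs_le.1 k).2, max_eq_right (abs_le.1 k).1]
    · rfl
    · rfl
  have Rab : ∀ z t, 0 ≤ t → 1 - ε + ε * t ≤ |z 0| → |R (z, t) 0| = 1 - ε + ε * t := by
    intro z t ht k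
    have p : 0 ≤ 1 - ε + ε * t := by nlinarith
    show |max _ (min _ (z 0))| = _
    rcases le_abs'.1 k with q | q
    · rw [min_eq_right (by linarith), max_eq_left q, abs_neg, abs_of_nonneg p]
    · rw [min_eq_left q, max_eq_right (by linarith), abs_of_nonneg p]
  have mR : MapsTo R ((H ⁻¹' (A ∩ B ∪ (GG H c (-1) ∪ GG H c 1))) ×ˢ Icc 0 1)
      (H ⁻¹' (A ∩ B ∪ (GG H c (-1) ∪ GG H c 1))) := by
    rintro ⟨z, t⟩ ⟨hz, ht⟩
    have p1 : 0 ≤ ε * t := mul_nonneg e0.le ht.1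
    have p2 : ε * t ≤ ε := mul_le_of_le_one_right e0.le ht.2
    rcases le_total (|z 0|) (1 - ε + ε * t) with q | q
    · rw [Rid z t q]; exact hz
    · exact (d.collar h s (by rw [Rab z t ht.1 q]; linarith)).2
        ⟨by rw [Rab z t ht.1 q]; linarith, ((d.collar h s (by linarith)).1 hz).2⟩
  have m0 : MapsTo (fun z => R (z, 0)) (H ⁻¹' (A ∩ B ∪ (GG H c (-1) ∪ GG H c 1)))
      (H ⁻¹' (A ∩ B)) := by
    intro z hz
    refine (mR (show (z, (0 : ℝ)) ∈ _ from ⟨hz, by simp⟩)).resolve_right fun k => ?_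
    have k1 := ((mem_Gam h).1 k).1
    rcases le_total (|z 0|) (1 - ε + ε * 0) with q | q
    · rw [Rid z 0 q] at k1; linarith
    · rw [Rab z 0 le_rfl q] at k1; linarith
  obtain ⟨b1, hb1⟩ := (hk.comp h.cont.continuousOn fun _ k => k).homotopy cR.continuousOn mR
    (hb.comp (by fun_prop) m0)
  have r1 : ∀ z ∈ H ⁻¹' (A ∩ B ∪ (GG H c (-1) ∪ GG H c 1)), R (z, 1) = z := by
    intro z hz
    refine Rid z 1 ?_
    rcases hz with k | k
    · linarith [((mem_UU h).1 (s.subA k.1)).1]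
    · linarith [((mem_Gam h).1 k).1]
  exact ⟨b1, hb1.congr (geq_of_eq fun x hx y hy => by simp only [r1 x hx, r1 y hy])⟩

/-- `H¹(C) → H¹(Γ₁)` is injective -/
theorem h1rel (h : Per {1} H) (s : St (UU H c δ) (GG H c (-1) ∪ GG H c 1) A B)
    (d : Std H c δ ε A B)
    (inc : ∀ x (p : Path x x), (∀ t, p t ∈ A ∩ B) → NH (UU H c δ) p → NH (A ∩ B) p) {C : Set V}
    (hC : Clop (A ∩ B ∪ (GG H c (-1) ∪ GG H c 1)) C) (cC : IsPreconnected C)
    (h1 : GG H c (-1) ⊆ C) : H1Rel C (GG H c (-1)) := by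
  classical
  refine h1rel_of h1 fun k hk ⟨β, hβ⟩ => ?_
  have hr : C ⊆ range H := hC.sub.trans (sub_range s.spl)
  obtain ⟨b, hb⟩ := tr_bar h s.spl d inc (hC.ext hk)
  replace hb : Prim (H ⁻¹' C) (fun x y => k (H x) (H y)) b :=
    (hb.mono (preimage_mono hC.sub)).congr (geq_of_eq fun x hx y _ => if_pos hx)
  refine ⟨_, prim_desc h hr hb fun z hz l hl => ?_⟩
  have hb' : Prim (H ⁻¹' C) (fun x y => k (H x) (H y)) fun x => b (x + l) :=
    (hb.comp (T := H ⁻¹' C) (f := fun x => x + l) (by fun_prop) fun x hx => by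
      show H (x + l) ∈ C
      rw [per_add h x hl]; exact hx).congr
      (geq_of_eq fun x _ y _ => by simp only [per_add h _ hl])
  have x1 : H ![-1, 0, c] ∈ GG H c (-1) := (mem_GG h).2 ⟨rfl, rfl⟩
  obtain ⟨p, hp⟩ := (hC.lpc (Srf.lcv s.srf).lpc).joined cC hz (h1 x1)
  obtain ⟨w, q, hq⟩ := lift_path h p (fun t => hr (hp t)) (z := z) rfl
  have hw : H w ∈ GG H c (-1) := by
    have : H w = H ![-1, 0, c] := by simpa using hq 1
    rw [this]; exact x1
  have qC : range q ⊆ H ⁻¹' C := by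
    rintro _ ⟨t, rfl⟩
    show H (q t) ∈ C
    rw [hq]; exact hp t
  have k1 := ((hb.lco hb').mono qC).eq (isPreconnected_range q.continuous) ⟨0, q.source⟩
    ⟨1, q.target⟩
  have cv : Convex ℝ (H ⁻¹' GG H c (-1)) := by
    intro x hx y hy a a' _ _ haa
    obtain ⟨x0, x2⟩ := (mem_GG h).1 hx
    obtain ⟨y0, y2⟩ := (mem_GG h).1 hy
    refine (mem_GG h).2 ⟨?_, ?_⟩ <;>
      simp only [Pi.add_apply, Pi.smul_apply, smul_eq_mul, x0, x2, y0, y2]
    · linarith
    · linear_combination c * haa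
  have k2 := (hβ.comp (T := H ⁻¹' GG H c (-1)) h.cont.continuousOn fun _ k => k).uniq
    (hb.mono (preimage_mono h1)) cv.isPreconnected (x := w) (y := w + l) hw
    (by show H (w + l) ∈ GG H c (-1); rw [per_add h w hl]; exact hw)
  rw [per_add h w hl, inv_mul_cancel_right] at k2
  simp only [k2, mul_inv_cancel] at k1
  exact mul_inv_eq_one.1 k1

theorem loop_GG (h : Per {1} H) (hp : LocPL H (rim {0})) {s : ℝ} (hs : |s| = 1) :
    Loop (GG H c s) fun t => H ![s, t, c] := by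
  refine ⟨fun R => plOn_of_locPL (locPL_comp hp (locPL_of_plOn (pl_vec3 (plOn_const _ _)
    (plOn_id _) (plOn_const _ _)) univ) fun t _ => ⟨0, Finset.mem_singleton_self _, ?_⟩)
    isCompact_Icc (subset_univ _), range_GG h s, fun a b => ?_⟩
  · show 1 / 2 < |s|
    rw [hs]; norm_num
  · rw [h.fib, mem_lat1]; simp

/-- the annulus lifted to the cover and untwisted -/
theorem exists_lifted (h : Per {1} H) {C : Set V} (hr : C ⊆ range H) {g : P → V} (a : Ann C g)
    (g1 : ∀ s, g ![-1, s] = H ![-1, s, c])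
    (g2 : (∀ s, g ![1, s] = H ![1, s, c]) ∨ ∀ s, g ![1, s] = H ![1, -s, c]) :
    ∃ G : P → V, ContinuousOn G {y | |y 0| ≤ 1} ∧ InjOn G {y | |y 0| ≤ 1} ∧
      (∀ y, |y 0| ≤ 1 → ∀ n : ℤ, G (y + ![0, (n : ℝ)]) = G y + ![0, (n : ℝ), 0]) ∧
      (∀ y, |y 0| = 1 → G y = lv c y) ∧ LPL (fun y => H (G y)) {y | |y 0| ≤ 1} ∧
      ∀ y, |y 0| ≤ 1 → ∃ y', y' 0 = y 0 ∧ H (G y) = g y' := by
  set T : Set P := {y | |y 0| ≤ 1} with hT
  have lg : LPL g T := fun y _ => ⟨1, one_pos, (a.pl (|y 1| + 1)).mono fun x hx => ⟨hx.2, by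
    have k : |x 1 - y 1| < 1 := (norm_le_pi_norm (x - y) 1).trans_lt (mem_ball_iff_norm.1 hx.1)
    linarith [abs_sub_abs_le_abs_sub (x 1) (y 1)]⟩⟩
  have cv : Convex ℝ T := by
    have e : T = (fun x : P => x 0) ⁻¹' Icc (-1) 1 := by
      ext x
      simp only [hT, mem_ofPred_eq, mem_preimage, mem_Icc, abs_le]
    rw [e]
    exact (convex_Icc (-1 : ℝ) 1).is_linear_preimage (lin_coord (n := 2) 0)
  have mT : ∀ s t : ℝ, |s| = 1 → (![s, t] : P) ∈ T := fun s t k => k.le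
  obtain ⟨u, u1, u2, u3⟩ := exists_lift_convex h cv lg.continuousOn
    (fun y hy => hr (a.img.subset ⟨y, hy, rfl⟩)) (mT (-1) 0 (by simp)) (g1 0).symm
  have line : ∀ (s : ℝ) (γ : ℝ → V), |s| = 1 → Continuous γ → (∀ t, g ![s, t] = H (γ t)) →
      ∀ t, u ![s, t] - γ t = u ![s, 0] - γ 0 := fun s γ k1 k2 k3 t =>
    lift_uniq h (T := univ) isPreconnected_univ (g := fun t => u ![s, t]) (g' := γ)
      (u1.comp (by fun_prop) fun t _ => mT s t k1) k2.continuousOn
      (fun t _ => by rw [u2 _ (mT s t k1), k3]) trivial trivial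
  have l1 : ∀ t, u ![-1, t] = ![-1, t, c] := fun t => by
    have := line (-1) (fun t => ![-1, t, c]) (by simp) (by fun_prop) g1 t
    rwa [u3, sub_self, sub_eq_zero] at this
  have aT : ∀ y ∈ T, ∀ r : ℝ, y + ![0, r] ∈ T := fun y hy r => by
    show |(y + ![0, r] : P) 0| ≤ 1
    rw [ad0]; exact hy
  have eqv : ∀ y ∈ T, ∀ n : ℤ, u (y + ![0, (n : ℝ)]) = u y + ![0, (n : ℝ), 0] := by
    intro y hy n
    have := lift_uniq h cv.isPreconnected (g := fun y => u (y + ![0, (n : ℝ)])) (g' := u)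
      (u1.comp (by fun_prop) fun y hy => aT y hy n) u1
      (fun y hy => by
        rw [u2 _ (aT y hy n), u2 y hy]
        exact (a.fib _ _ (aT y hy n) hy).2 ⟨ad0 _ _, n, by rw [ad1]; ring⟩)
      (mT (-1) 0 (by simp)) hy
    rw [show (![-1, 0] : P) + ![0, (n : ℝ)] = ![-1, (n : ℝ)] by simp, l1, l1] at this
    rw [← sub_eq_iff_eq_add', this]
    ext i; fin_cases i <;> simp
  obtain ⟨m, l2⟩ : ∃ m : ℤ, ∀ t, u ![1, t] = ![1, t + m, c] := by
    rcases g2 with g2 | g2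
    · obtain ⟨k0, ⟨m, k1⟩, k2⟩ := mem_lat1.1 ((h.fib _ _).1 ((u2 _ (mT 1 0 (by simp))).trans (g2 0)))
      refine ⟨m, fun t => ?_⟩
      have := line 1 (fun t => ![1, t, c]) (by simp) (by fun_prop) g2 t
      rw [sub_eq_iff_eq_add] at this
      rw [this]
      ext i; fin_cases i
      · simp only [Fin.zero_eta, Pi.add_apply, k0]; simp
      · simp only [Fin.mk_one, Pi.add_apply, k1]; simp [add_comm]
      · simp only [Fin.reduceFinMk, Pi.add_apply, k2]; simp
    · have k1 := congrFun (line 1 (fun t => ![1, -t, c]) (by simp) (by fun_prop) g2 1) 1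
      have k2 := congrFun (eqv _ (mT 1 0 (by simp)) 1) 1
      simp at k1 k2
      linarith
  let τ : P → P := fun y => y + ![0, -(m * (y 0 + 1) / 2)]
  have pτ : PLOn τ univ := pl_add (plOn_id _) (pl_vec2 (plOn_const _ _) (pl_neg
    ((pl_mul ((m : ℝ) / 2) (pl_add (pl_coord 0 _) (plOn_const 1 _))).congr fun y _ => by ring)))
  have τT : MapsTo τ T T := fun y hy => aT y hy _
  have τ0 : ∀ y, τ y 0 = y 0 := fun y => ad0 _ _
  have τ1 : ∀ y, τ y 1 = y 1 - m * (y 0 + 1) / 2 := fun y => (ad1 _ _).trans (by ring)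
  refine ⟨fun y => u (τ y), u1.comp (continuousOn_univ.1 pτ.1).continuousOn τT,
    fun y hy y' hy' e => ?_, fun y hy n => ?_, fun y hy => ?_,
    lpl_congr (lg.comp (Lad50.lpl_of_plOn (pτ.mono (subset_univ _))) τT) fun y hy => u2 _ (τT hy),
    fun y hy => ⟨τ y, τ0 y, u2 _ (τT hy)⟩⟩
  · have e' : u (τ y) = u (τ y') := e
    obtain ⟨k0, n, k1⟩ := (a.fib _ _ (τT hy) (τT hy')).1
      (by rw [← u2 _ (τT hy), ← u2 _ (τT hy'), e'])
    have k2 : τ y = τ y' + ![0, (n : ℝ)] := by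
      ext i; fin_cases i
      · exact k0.trans (ad0 _ _).symm
      · show τ y 1 = τ y' 1 + n
        linarith
    have k3 := congrFun (eqv _ (τT hy') n) 1
    rw [← k2, e'] at k3
    simp only [Pi.add_apply, Matrix.cons_val_one, Matrix.cons_val_zero] at k3
    rw [τ0, τ0] at k0
    rw [τ1, τ1, k0] at k1
    ext i; fin_cases i
    · exact k0
    · show y 1 = y' 1
      linarith
  · show u (τ (y + ![0, (n : ℝ)])) = u (τ y) + _
    rw [← eqv _ (τT hy) n]
    congr 1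
    ext i; fin_cases i
    · exact ((τ0 _).trans (ad0 _ _)).trans ((ad0 _ _).trans (τ0 _)).symm
    · show τ (y + ![0, (n : ℝ)]) 1 = τ y 1 + n
      rw [τ1, τ1, ad0, ad1]; ring
  · show u (τ y) = _
    have e : τ y = ![τ y 0, τ y 1] := by ext i; fin_cases i <;> rfl
    rw [e, τ0, τ1]
    rcases (abs_eq zero_le_one).1 hy with k | k
    · rw [k, l2, lv, k]; congr 2; ring_nf
    · rw [k, l1, lv, k]; congr 2; ring_nf

theorem mem_out0 {x : V} : x ∈ out {0} ↔ 1 ≤ |x 0| := by simp [out]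

/-- the rung for a periodic embedding -/
theorem rung_of (hI : IncStmt) (hL : LevStmt) (hA : AnnRec) (h : Per {1} H)
    (hp : LocPL H (rim {0})) (c : ℝ) (hδ : 0 < δ) : ∃ u, Rung {0} {1} H c δ u := by
  classical
  obtain ⟨A, B, ε, s, d, inc⟩ := exists_inc hI hL h hp c hδ
  have x1 : H ![-1, 0, c] ∈ GG H c (-1) := (mem_GG h).2 ⟨rfl, rfl⟩
  have x2 : H ![1, 0, c] ∈ GG H c 1 := (mem_GG h).2 ⟨rfl, rfl⟩
  set C := connectedComponentIn (A ∩ B ∪ (GG H c (-1) ∪ GG H c 1)) (H ![-1, 0, c]) with hCd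
  have hC : Clop _ C := (Srf.lcv s.srf).lpc.clop _
  have m1 : H ![-1, 0, c] ∈ C := mem_connectedComponentIn (Or.inr (Or.inl x1))
  have cC : IsConnected C := ⟨⟨_, m1⟩, isPreconnected_connectedComponentIn⟩
  have s1 : GG H c (-1) ⊆ C := hC.subset (conn_GG h _) (fun _ k => Or.inr (Or.inl k)) x1 m1
  have s2 : GG H c 1 ⊆ C := hC.subset (conn_GG h _) (fun _ k => Or.inr (Or.inr k)) x2
    (reach h s.spl d hC m1)
  have sf : Srf C (GG H c (-1) ∪ GG H c 1) := by
    have := Srf.clop s.srf hC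
    rwa [inter_eq_self_of_subset_left (union_subset s1 s2)] at this
  have dj : Disjoint (GG H c (-1)) (GG H c 1) := by
    rw [disjoint_left]
    intro y k1 k2
    obtain ⟨z, rfl⟩ := Im_sub k1
    linarith [((mem_GG h).1 k1).1, ((mem_GG h).1 k2).1]
  obtain ⟨g, a, g1, g2⟩ := hA C _ _ _ _ sf dj cC (h1rel h s d inc hC cC.2 s1)
    (loop_GG h hp (by simp)) (loop_GG h hp (by simp))
  obtain ⟨G, G1, G2, G3, G4, G5, G6⟩ :=
    exists_lifted h (hC.sub.trans (sub_range s.spl)) a g1 g2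
  have mS : ∀ y : P, |y 0| ≤ 1 → H (G y) ∈ A ∩ B ∪ (GG H c (-1) ∪ GG H c 1) := by
    intro y hy
    obtain ⟨y', k1, k2⟩ := G6 y hy
    rw [k2]
    exact hC.sub (a.img.subset ⟨y', by show |y' 0| ≤ 1; rw [k1]; exact hy, rfl⟩)
  have mU : ∀ y : P, |y 0| < 1 → H (G y) ∈ UU H c δ := by
    intro y hy
    refine s.spl.subA ((mS y hy.le).resolve_right ?_).1
    obtain ⟨y', k1, k2⟩ := G6 y hy.le
    have key : ∀ σ t : ℝ, |σ| = 1 → H (G y) ≠ g ![σ, t] := fun σ t k e => by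
      have : y' 0 = σ := ((a.fib y' ![σ, t] (by rw [k1]; exact hy.le) k.le).1 (k2 ▸ e)).1
      rw [← k1, this, k] at hy
      exact lt_irrefl _ hy
    rintro (k | k)
    · obtain ⟨t, ht⟩ := (range_GG h _).superset k
      exact key (-1) t (by simp) (ht.symm.trans (g1 t).symm)
    · obtain ⟨t, ht⟩ := (range_GG h _).superset k
      rcases g2 with g2 | g2
      · exact key 1 t (by simp) (ht.symm.trans (g2 t).symm)
      · exact key 1 (-t) (by simp) (ht.symm.trans (by rw [g2, neg_neg]))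
  let u : P → V := fun y => if |y 0| ≤ 1 then G y else lv c y
  have u1 : ∀ y : P, |y 0| ≤ 1 → u y = G y := fun y hy => if_pos hy
  have u2 : ∀ y : P, 1 ≤ |y 0| → u y = lv c y := fun y hy => by
    by_cases k : |y 0| ≤ 1
    · rw [u1 y k, G4 y (le_antisymm k hy)]
    · exact if_neg k
  have c1 : IsClosed {y : P | |y 0| ≤ 1} := isClosed_le (by fun_prop) continuous_const
  have c2 : IsClosed {y : P | 1 ≤ |y 0|} := isClosed_le continuous_const (by fun_prop)
  have ins : ∀ y : P, |y 0| < 1 → |u y 0| < 1 := fun y hy => by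
    rw [u1 y hy.le]; exact ((mem_UU h).1 (mU y hy)).1
  refine ⟨u, ?_, fun y y' e => ?_, fun y m hm => ?_, fun y hy => u2 y (mem_out0.1 hy),
    fun y hy k => ?_, fun y => ?_, ?_⟩
  · rw [← continuousOn_univ, ← eq_univ_of_forall (s := {y : P | |y 0| ≤ 1} ∪ {y : P | 1 ≤ |y 0|})
      fun y => le_total (|y 0|) 1]
    exact (G1.congr u1).union_of_isClosed ((Lad50.continuous_lv c).continuousOn.congr u2) c1 c2
  · have key : ∀ y y' : P, u y = u y' → |y 0| < 1 → |y' 0| < 1 := fun y y' e hy => by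
      by_contra k
      have := ins y hy
      rw [e, u2 y' (not_lt.1 k)] at this
      exact k this
    by_cases hy : |y 0| < 1
    · have hy' := key y y' e hy
      rw [u1 y hy.le, u1 y' hy'.le] at e
      exact G2 hy.le hy'.le e
    · have hy' : ¬ |y' 0| < 1 := fun k => hy (key y' y e.symm k)
      rw [u2 y (not_lt.1 hy), u2 y' (not_lt.1 hy')] at e
      exact lv_injective c e
  · obtain ⟨k0, ⟨n, k1⟩, -⟩ := mem_lat1.1 hm
    have e : m = ![0, (n : ℝ)] := by
      ext i; fin_cases i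
      · exact k0
      · exact k1
    subst e
    have e0 := ad0 y n
    rcases le_total (|y 0|) 1 with k | k
    · rw [u1 y k, u1 _ (by rw [e0]; exact k), G3 y k n]; rfl
    · rw [u2 y k, u2 _ (by rw [e0]; exact k)]
      ext i; fin_cases i <;> simp [lv]
  · exact (ins y (not_le.1 fun q => hy (mem_out0.2 q))).not_ge (mem_out0.1 k)
  · rcases lt_or_ge (|y 0|) 1 with k | k
    · rw [u1 y k.le]; exact ((mem_UU h).1 (mU y k)).2
    · rw [u2 y k]
      show |c - c| < δ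
      rw [sub_self, abs_zero]; exact hδ
  · refine locPL_of_closed c1 c2 (fun y hy => (le_total (|y 0|) 1).resolve_left hy)
      (lpl_congr G5 fun y hy => congrArg H (u1 y hy))
      (lpl_of_locPL (locPL_comp (Ω := {y : P | 1 ≤ |y 0|}) hp (locPL_of_plOn (plOn_lv c _) _)
        fun y hy => out_subset_rim _ (mem_out0.2 hy)) Subset.rfl
        fun y hy => congrArg H (u2 y hy))

/-- **(RUNG1)** -/
theorem rung1 (hI : IncStmt) (hL : LevStmt) (hA : AnnRec) : Rung1Stmt := by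
  intro pl ρ hP h hh hp c δ hδ
  exact rung_of hI hL hA (per_comp_qq hP hh) (locPL_comp hp
    (locPL_mono (locPL_qq hP) (subset_univ _)) fun x ⟨i, hi, hx⟩ => ⟨i, hi, by
      rw [Finset.mem_singleton.1 hi] at hx ⊢; exact hx⟩) c hδ

end Crest.Agent.X212.Rg3
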