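import Crest.Agent.X212.Lev33.Lat
import Crest.Agent.X212.Lad50.Comp

/-!
# Row 212, layer T, R1 (helper3), part 1: calculus of periodic embeddings `Per J H`
-/

set_option autoImplicit false

open Set Metric Topology Filter Crest.Agent.R096.Ce_537 Crest.Agent.X212.Prd34
  Crest.Agent.X212.Lev33 unitInterval
open Crest.Agent.R096.Cx_609 (equivOfInjOn)

namespace Crest.Agent.X212.Rg3

variable {J : Finset (Fin 3)} {H : V → V}

theorem coord_eq (h : Per J H) {x y : V} (e : H x = H y) {i : Fin 3} (hi : i ∉ J) : x i = y i :=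
  sub_eq_zero.1 (((h.fib x y).1 e i).2 hi)

theorem sec_coord (h : Per J H) (z : V) {i : Fin 3} (hi : i ∉ J) : sec H (H z) i = z i :=
  coord_eq h (sec_eq ⟨z, rfl⟩) hi

theorem injOn_ball (h : Per J H) (z : V) : InjOn H (ball z (1 / 2)) := by
  intro x hx y hy e
  refine sub_eq_zero.1 (lat_small ((h.fib _ _).1 e) ?_)
  have := dist_triangle_right x y z
  rw [← dist_eq_norm]
  linarith [mem_ball.1 hx, mem_ball.1 hy]

/-- the free coordinates descend continuously -/
theorem cont_sec (h : Per J H) {i : Fin 3} (hi : i ∉ J) :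
    ContinuousOn (fun y => sec H y i) (range H) := by
  intro x hx
  obtain ⟨h1, h2⟩ := lsec_tendsto h hx
  refine ContinuousAt.continuousWithinAt ?_
  refine Tendsto.congr' ?_ (((continuous_apply i).tendsto _).comp h1)
  filter_upwards [h2] with y hy
  show lsec H x y i = sec H y i
  conv_rhs => rw [← hy]
  exact (sec_coord h _ hi).symm

/-- the free coordinates are PL where `H` is -/
theorem pl_sec (h : Per J H) {i : Fin 3} (hi : i ∉ J) {z : V} {r : ℝ} (hr : 0 < r)
    (hp : PLOn H (ball z r)) : ∃ N ∈ 𝓝 (H z), PLOn (fun y => sec H y i) N := by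
  have h1 : closedBall z (min r (1 / 2) / 2) ⊆ ball z (min r (1 / 2)) :=
    closedBall_subset_ball (half_lt_self (lt_min hr (by norm_num)))
  let e := equivOfInjOn (convex_closedBall z (min r (1 / 2) / 2)).finConv isClosed_closedBall
    (hp.mono (h1.trans (ball_subset_ball (min_le_left _ _))))
    ((injOn_ball h z).mono (h1.trans (ball_subset_ball (min_le_right _ _))))
  refine ⟨_, h.opn.image_mem_nhds (closedBall_mem_nhds z (half_pos (lt_min hr (by norm_num)))),
    (Lad50.pl_apply e.pg i).congr ?_⟩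
  rintro _ ⟨x, hx, rfl⟩
  show sec H (H x) i = e.g (e.f x) i
  rw [e.li x hx, sec_coord h x hi]

/-- preimages of locally path connected sets -/
theorem lpc_preimage (h : Per J H) {S : Set V} (hS : LPC S) : LPC (H ⁻¹' S) := by
  intro z hz W hW
  obtain ⟨N, h1, h2, h3⟩ := hS (H z) hz _ (h.opn.image_mem_nhds
    (inter_mem hW (ball_mem_nhds z (show (0 : ℝ) < 1 / 4 by norm_num))))
  have key : ∀ y, H y ∈ N → y ∈ ball z (1 / 2) → y ∈ W ∩ ball z (1 / 4) := by
    intro y k1 k2
    obtain ⟨x, hx, e⟩ := (h2 k1).1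
    rwa [← injOn_ball h z (ball_subset_ball (by norm_num) hx.2) k2 e]
  refine ⟨H ⁻¹' N ∩ ball z (1 / 2), inter_mem ?_ (mem_nhdsWithin_of_mem_nhds
    (ball_mem_nhds z (by norm_num))), fun y hy => ⟨(key y hy.1 hy.2).1, (h2 hy.1).2⟩,
    fun y hy => ?_⟩
  · exact h.cont.continuousWithinAt.tendsto_nhdsWithin (fun _ k => k) h1
  · obtain ⟨p, hp⟩ := h3 _ hy.1
    obtain ⟨w, q, hq⟩ := lift_path h p (fun t => image_subset_range _ _ (h2 (hp t)).1) (z := z) rfl
    have k : range q ⊆ ball z (1 / 2) := by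
      refine (isPreconnected_range q.continuous).subset_left_of_subset_union isOpen_ball
        (isClosed_closedBall (x := z) (ε := 1 / 2)).isOpen_compl
        (disjoint_left.2 fun x k1 k2 => k2 (ball_subset_closedBall k1)) ?_
        ⟨z, ⟨0, q.source⟩, mem_ball_self (by norm_num)⟩
      rintro _ ⟨t, rfl⟩
      obtain ⟨x, hx, e⟩ := (h2 (hp t)).1
      by_cases k : q t = x
      · exact Or.inl (k ▸ ball_subset_ball (by norm_num) hx.2)
      · refine Or.inr fun k2 => k (sub_eq_zero.1 (lat_small ((h.fib _ _).1 ((hq t).trans e.symm)) ?_))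
        have := dist_triangle_right (q t) x z
        rw [← dist_eq_norm]
        linarith [mem_ball.1 hx.2, mem_closedBall.1 k2]
    have e : w = y := injOn_ball h z (k ⟨1, q.target⟩) hy.2 (by simpa using hq 1)
    subst e
    exact ⟨q, fun t => ⟨by show H (q t) ∈ N; rw [hq]; exact hp t, k ⟨t, rfl⟩⟩⟩

/-- a primitive upstairs which is invariant under the lattice descends -/
theorem prim_desc {G : Type*} [Group G] (h : Per J H) {C : Set V} (hC : C ⊆ range H)
    {c : V → V → G} {b : V → G} (hb : Prim (H ⁻¹' C) (fun x y => c (H x) (H y)) b)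
    (inv : ∀ z ∈ H ⁻¹' C, ∀ l ∈ lat J, b (z + l) = b z) : Prim C c (fun x => b (sec H x)) := by
  intro x hx
  obtain ⟨h1, h2⟩ := lsec_tendsto h (hC hx)
  have h3 : Tendsto (lsec H x) (𝓝[C] x) (𝓝[H ⁻¹' C] (sec H x)) := by
    refine tendsto_nhdsWithin_iff.2 ⟨h1.mono_left nhdsWithin_le_nhds, ?_⟩
    filter_upwards [mem_nhdsWithin_of_mem_nhds h2, self_mem_nhdsWithin] with y k1 k2
    show H (lsec H x y) ∈ C
    rw [k1]; exact k2
  have hx' : sec H x ∈ H ⁻¹' C := by
    show H (sec H x) ∈ C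
    rw [sec_eq (hC hx)]; exact hx
  filter_upwards [h3 (hb _ hx'), mem_nhdsWithin_of_mem_nhds h2, self_mem_nhdsWithin]
    with y k1 k2 k3
  have k4 : b (lsec H x y) = b (sec H x) * c (H (sec H x)) (H (lsec H x y)) := k1
  rw [k2, sec_eq (hC hx)] at k4
  rw [← k4, ← inv (lsec H x y) (by show H _ ∈ C; rw [k2]; exact k3) (sec H y - lsec H x y)
    ((h.fib _ _).1 ((sec_eq (hC k3)).trans k2.symm)), add_sub_cancel]

/-- cocycles on the cover of a `π₁`-injective surface in the image of a convex set -/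
theorem tr_cover {G : Type*} [Group G] (h : Per J H) {S U Ut : Set V} (hS : LPC S)
    (hUt : Convex ℝ Ut) (h1 : H ⁻¹' S ⊆ Ut) (h2 : MapsTo H Ut U)
    (inc : ∀ x (p : Path x x), (∀ t, p t ∈ S) → NH U p → NH S p) {c : V → V → G} (hc : Coc S c) :
    Tr (H ⁻¹' S) fun x y => c (H x) (H y) := by
  refine prim_of_hol (lpc_preimage h hS) (hc.comp h.cont.continuousOn fun _ k => k)
    fun z p hp => ?_
  have hz : z ∈ H ⁻¹' S := by simpa using hp 0
  obtain ⟨F, hF⟩ := convex_homotopy hUt p (Path.refl z) (fun t => h1 (hp t)) fun _ => h1 hz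
  obtain ⟨F', hF'⟩ := inc (H z) (p.map h.cont) hp ⟨F.map ⟨H, h.cont⟩, fun t => h2 (hF t)⟩
  have := hol_homotopy hc F' hF'
  rw [hol_refl hc hz] at this
  exact this

/-! ### the lattice cocycle modulo two -/

/-- parity of a coordinate -/
noncomputable def par (i : Fin 3) (v : Multiplicative V) : Z2 :=
  Multiplicative.ofAdd ((round (v.toAdd i) : ℤ) : ZMod 2)

theorem par_mul {i : Fin 3} (hi : i ∈ J) {a b : Multiplicative V} (hb : b.toAdd ∈ lat J) :
    par i (a * b) = par i a * par i b := by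
  obtain ⟨m, hm⟩ := (hb i).1 hi
  simp only [par, toAdd_mul, Pi.add_apply, hm, round_add_intCast, round_intCast, Int.cast_add,
    ofAdd_add]

theorem latc_mem (h : Per J H) {x : V} (hx : x ∈ range H) :
    ∀ᶠ y in 𝓝 x, (latc H x y).toAdd ∈ lat J := by
  filter_upwards [(lsec_tendsto h hx).2] with y hy
  exact (h.fib _ _).1 ((sec_eq ⟨_, hy⟩).trans hy.symm)

theorem coc_par (h : Per J H) {i : Fin 3} (hi : i ∈ J) :
    Coc (range H) fun x y => par i (latc H x y) := by
  intro x hx
  filter_upwards [latc_coc h x hx, self_mem_nhdsWithin] with y h1 h2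
  filter_upwards [h1, mem_nhdsWithin_of_mem_nhds (latc_mem h h2)] with z k1 k2
  rw [k1, par_mul hi k2]

/-- a curve whose lift moves by an odd amount is essential -/
theorem not_tr_par (h : Per J H) {i : Fin 3} (hi : i ∈ J) {L : Set V} {g : ℝ → V}
    (hg : Continuous g) (hm : ∀ t, H (g t) ∈ L) (hc : H (g 0) = H (g 1)) (e : g 1 i = g 0 i + 1) :
    ¬ Tr L fun x y => par i (latc H x y) := by
  rintro ⟨b, hb⟩
  have h1 := hol_prim hb (γ := fun t => H (g t)) (h.cont.comp hg).continuousOn fun t _ => hm t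
  have h2 : Prim (Icc (0 : ℝ) 1) (fun s t => par i (latc H (H (g s)) (H (g t))))
      (fun t => par i (Multiplicative.ofAdd (sec H (H (g t)) - g t))) := by
    intro s hs
    filter_upwards [prim_of_lift h hg.continuousOn s hs, mem_nhdsWithin_of_mem_nhds
      ((h.cont.comp hg).continuousAt (latc_mem h ⟨g s, rfl⟩))] with t k1 k2
    rw [k1]; exact par_mul hi k2
  rw [hol_eq h2, ← hc, inv_mul_cancel, inv_mul_eq_one] at h1
  obtain ⟨m, hm⟩ := (sec_lat h (g 0) i).1 hi
  have hm' : (sec H (H (g 0)) - g 1) i = ((m - 1 : ℤ) : ℝ) := by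
    rw [Pi.sub_apply] at hm ⊢
    rw [e]; push_cast; linarith
  simp only [par, toAdd_ofAdd, hm, hm', round_intCast, EmbeddingLike.apply_eq_iff_eq] at h1
  push_cast at h1
  have : (1 : ZMod 2) = 0 := by linear_combination h1
  exact one_ne_zero this

/-! ### crossing cocycles -/

theorem prim_cross_one {G : Type*} [Group G] {C T : Set V} {sd : V → G} [DecidablePred (· ∈ C)]
    (hT : ∀ x ∈ T, x ∉ C) :
    Prim T (fun x y => if x ∈ C then (sd x)⁻¹ * sd y else 1) fun _ => 1 := by
  intro x hx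
  filter_upwards with y
  rw [if_neg (hT x hx), mul_one]

theorem prim_cross_sd {G : Type*} [Group G] {U A B C T : Set V} (h : Spl U A B) {sd : V → G}
    {a b : G} (ha : ∀ x ∈ U \ B, sd x = a) (hb : ∀ x ∈ B, sd x = b) [DecidablePred (· ∈ C)]
    (hU : T ⊆ U) (hT : ∀ x ∈ T, x ∈ A ∩ B → x ∈ C) :
    Prim T (fun x y => if x ∈ C then (sd x)⁻¹ * sd y else 1) sd := by
  intro x hx
  by_cases k : x ∈ C
  · filter_upwards with y
    rw [if_pos k]; group
  · simp only [if_neg k, mul_one]
    refine mem_nhdsWithin_of_mem_nhds ?_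
    by_cases q : x ∈ B
    · filter_upwards [h.clA.mem_nhds ⟨hU hx, fun r => k (hT x hx ⟨r, q⟩)⟩] with z hz
      rw [hb x q, hb z ((h.union.superset hz.1).resolve_left hz.2)]
    · filter_upwards [h.clB.mem_nhds ⟨hU hx, q⟩] with z hz
      rw [ha x ⟨hU hx, q⟩, ha z hz]

end Crest.Agent.X212.Rg3
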