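import Crest.Agent.X212.Rg3.Com

/-!
# Row 212, layer T, R1 (helper3), part 2: the incompressible splitting of the solid ring
-/

set_option autoImplicit false

open Set Metric Topology Filter Crest.Agent.R096.Ce_537 Crest.Agent.X212.Prd34
  Crest.Agent.X212.Lev33 Crest.Agent.X212.Lad50
open Crest.Agent.R096.Cx_609 (isBall_of_injOn)

namespace Crest.Agent.X212.Rg3

variable {H : V → V} {c δ ε : ℝ} {A B : Set V}

theorem n0 : (0 : Fin 3) ∉ ({1} : Finset (Fin 3)) := by decide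
theorem n2 : (2 : Fin 3) ∉ ({1} : Finset (Fin 3)) := by decide

theorem mem_lat1 {l : V} : l ∈ Prd34.lat {1} ↔ l 0 = 0 ∧ (∃ n : ℤ, l 1 = n) ∧ l 2 = 0 := by
  constructor
  · intro h
    exact ⟨(h 0).2 n0, (h 1).1 (by decide), (h 2).2 n2⟩
  · rintro ⟨h0, h1, h2⟩ i
    fin_cases i
    · exact ⟨fun h => absurd h n0, fun _ => h0⟩
    · exact ⟨fun _ => h1, fun h => absurd (Finset.mem_singleton_self _) h⟩
    · exact ⟨fun h => absurd h n2, fun _ => h2⟩

/-- the ring over the plane set `Q` -/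
def Im (H : V → V) (Q : Set (ℝ × ℝ)) : Set V := H '' {x | (x 0, x 2) ∈ Q}

theorem mem_Im (h : Per {1} H) {Q : Set (ℝ × ℝ)} {z : V} : H z ∈ Im H Q ↔ (z 0, z 2) ∈ Q := by
  refine ⟨?_, fun k => ⟨z, k, rfl⟩⟩
  rintro ⟨x, hx, e⟩
  rw [← coord_eq h e n0, ← coord_eq h e n2]; exact hx

theorem Im_sub {Q : Set (ℝ × ℝ)} : Im H Q ⊆ range H := image_subset_range _ _

theorem isOpen_Im (h : Per {1} H) {Q : Set (ℝ × ℝ)} (hQ : IsOpen Q) : IsOpen (Im H Q) :=
  h.opn _ (hQ.preimage (f := fun x : V => (x 0, x 2)) (by fun_prop))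

theorem isCompact_Im (h : Per {1} H) {Q : Set (ℝ × ℝ)} (hQ : IsCompact Q) :
    IsCompact (Im H Q) := by
  have hc := h.cont
  have : Im H Q = (fun p : (ℝ × ℝ) × ℝ => H ![p.1.1, p.2, p.1.2]) '' (Q ×ˢ Icc 0 1) := by
    ext y
    constructor
    · rintro ⟨z, hz, rfl⟩
      refine ⟨((z 0, z 2), Int.fract (z 1)), ⟨hz, Int.fract_nonneg _, (Int.fract_lt_one _).le⟩, ?_⟩
      exact (h.fib _ _).2 (mem_lat1.2 ⟨by simp, ⟨-⌊z 1⌋, by simp [← Int.self_sub_floor]⟩, by simp⟩)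
    · rintro ⟨p, hp, rfl⟩
      exact (mem_Im h).2 hp.1
  rw [this]
  exact (hQ.prod isCompact_Icc).image (by fun_prop)

/-- the open ring -/
def UU (H : V → V) (c δ : ℝ) : Set V := Im H {q | |q.1| < 1 ∧ |q.2 - c| < δ}

/-- the two circles -/
def GG (H : V → V) (c s : ℝ) : Set V := Im H {(s, c)}

theorem mem_UU (h : Per {1} H) {z : V} : H z ∈ UU H c δ ↔ |z 0| < 1 ∧ |z 2 - c| < δ := mem_Im h

theorem mem_GG (h : Per {1} H) {s : ℝ} {z : V} : H z ∈ GG H c s ↔ z 0 = s ∧ z 2 = c := by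
  rw [GG, mem_Im h]; simp

theorem mem_Gam (h : Per {1} H) {z : V} :
    H z ∈ GG H c (-1) ∪ GG H c 1 ↔ |z 0| = 1 ∧ z 2 = c := by
  rw [mem_union, mem_GG h, mem_GG h, abs_eq zero_le_one]; tauto

theorem range_GG (h : Per {1} H) (s : ℝ) : (range fun t : ℝ => H ![s, t, c]) = GG H c s := by
  ext y
  constructor
  · rintro ⟨t, rfl⟩
    exact (mem_GG h).2 ⟨rfl, rfl⟩
  · intro hy
    obtain ⟨z, rfl⟩ := Im_sub hy
    obtain ⟨h1, h2⟩ := (mem_GG h).1 hy
    refine ⟨z 1, congrArg H ?_⟩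
    ext i; fin_cases i <;> simp [h1, h2]

theorem conn_GG (h : Per {1} H) (s : ℝ) : IsPreconnected (GG H c s) := by
  have hc := h.cont
  rw [← range_GG h]
  exact isPreconnected_range (by fun_prop)

/-- standard near the walls, `A` above and `B` below -/
structure Std (H : V → V) (c δ ε : ℝ) (A B : Set V) : Prop where
  pos : 0 < ε
  le : ε ≤ 1 / 4
  lt : ε < δ
  wall : ∀ z, 1 - ε ≤ |z 0| → |z 0| < 1 → |z 2 - c| < δ →
    (H z ∈ A ↔ c ≤ z 2) ∧ (H z ∈ B ↔ z 2 ≤ c)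
  lowA : ∀ z, H z ∈ A → c - δ + ε ≤ z 2
  upB : ∀ z, H z ∈ B → z 2 ≤ c + δ - ε

/-- the cut-off -/
noncomputable def mu0 (s : ℝ) : ℝ := max 0 (min 1 (7 - 8 * |s|))

theorem pl_mu0 {f : V → ℝ} {K : Set V} (hf : PLOn f K) : PLOn (fun x => mu0 (f x)) K :=
  pl_max (plOn_const _ _) (pl_min (plOn_const _ _) (pl_sub (plOn_const _ _)
    (pl_mul _ (pl_abs hf))))

theorem continuous_mu0 : Continuous mu0 := by unfold mu0; fun_prop

/-- the first splitting -/
theorem exists_spl (hL : LevStmt) (h : Per {1} H) (hp : LocPL H (rim {0})) (c : ℝ) (hδ : 0 < δ) :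
    ∃ A B ε, Spl (UU H c δ) A B ∧ Std H c δ ε A B := by
  have o1 : ∀ a : ℝ, IsOpen {q : ℝ × ℝ | |q.1| < a} := fun a =>
    isOpen_lt (by fun_prop) continuous_const
  have o2 : IsOpen {q : ℝ × ℝ | |q.2 - c| < δ} := isOpen_lt (by fun_prop) continuous_const
  have o3 : IsOpen {q : ℝ × ℝ | 1 / 2 < |q.1|} := isOpen_lt continuous_const (by fun_prop)
  have oU : IsOpen (UU H c δ) := isOpen_Im h ((o1 1).inter o2)
  have s0 : ∀ z, sec H (H z) 0 = z 0 := fun z => sec_coord h z n0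
  have s2 : ∀ z, sec H (H z) 2 = z 2 := fun z => sec_coord h z n2
  obtain ⟨A, B, K', t, h1, h2, h3, h4, h5, h6, h7⟩ := hL (UU H c δ)
    (Im H {q | (1 / 2 < |q.1| ∧ |q.1| < 1) ∧ |q.2 - c| < δ})
    (Im H {q | |q.1| < 3 / 4 ∧ |q.2 - c| < δ})
    (Im H (Icc (-(1 / 2)) (1 / 2) ×ˢ Icc (c - δ / 2) (c + δ / 2)))
    (fun y => sec H y 2 - c) (fun y => mu0 (sec H y 0)) (δ / 2) oU
    (isOpen_Im h ((o3.inter (o1 1)).inter o2))
    (image_mono fun x hx => ⟨hx.1.2, hx.2⟩)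
    (isOpen_Im h ((o1 (3 / 4)).inter o2))
    (image_mono fun x hx => ⟨hx.1.trans (by norm_num), hx.2⟩)
    (isCompact_Im h (isCompact_Icc.prod isCompact_Icc))
    (image_mono fun x hx => ⟨abs_lt.2 ⟨by linarith [hx.1.1], by linarith [hx.1.2]⟩,
      abs_lt.2 ⟨by linarith [hx.2.1], by linarith [hx.2.2]⟩⟩)
    (half_pos hδ) (((cont_sec h n2).mono Im_sub).sub continuousOn_const)
    (continuous_mu0.comp_continuousOn ((cont_sec h n0).mono Im_sub))
    (locPL_of_nhds (by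
      rintro _ ⟨z, hz, rfl⟩
      obtain ⟨r, hr, k⟩ := hp z ⟨0, Finset.mem_singleton_self _, hz.1.1⟩
      obtain ⟨N, hN, k'⟩ := pl_sec h n2 hr k
      exact ⟨N, hN, pl_sub k' (plOn_const _ _)⟩))
    (by
      rintro _ ⟨z, hz, rfl⟩ k
      simp only [s2] at k
      by_cases q : 1 / 2 < |z 0|
      · exact Or.inl ((mem_Im h).2 ⟨⟨q, hz.1⟩, hz.2⟩)
      · exact Or.inr ((mem_Im h).2 ⟨abs_le.1 (not_lt.1 q),
          by linarith [(abs_le.1 k).1], by linarith [(abs_le.1 k).2]⟩))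
    (by
      rintro _ ⟨z, hz, rfl⟩
      have : |z 0| < 3 / 4 := hz.1
      simp only [s0, mu0]
      rw [min_eq_left (by linarith), max_eq_right zero_le_one])
    (fun x _ => ⟨le_max_left _ _, max_le zero_le_one (min_le_left _ _)⟩)
    (by
      rintro t - _ ⟨z, hz, rfl⟩ e
      simp only [s0, s2] at e
      obtain ⟨r, hr, k⟩ := hp z ⟨0, Finset.mem_singleton_self _, hz.1.1⟩
      let σ : V → V := fun v => ![z 0 + v 0, z 1 + v 1, c + v 2 + t * mu0 (z 0 + v 0)]
      have pσ : PLOn σ univ := pl_vec3 (pl_add (plOn_const _ _) (pl_coord 0 _))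
        (pl_add (plOn_const _ _) (pl_coord 1 _)) (pl_add (pl_add (plOn_const _ _) (pl_coord 2 _))
          (pl_mul _ (pl_mu0 (pl_add (plOn_const _ _) (pl_coord 0 _)))))
      have σ0 : σ 0 = z := by
        ext i; fin_cases i <;> simp [σ]
        linarith
      have tσ : Tendsto σ (𝓝 0) (𝓝 z) := σ0 ▸ (continuousOn_univ.1 pσ.1).continuousAt
      have iσ : Function.Injective σ := by
        intro v v' e
        have e0 : z 0 + v 0 = z 0 + v' 0 := congrFun e 0
        have e1 : z 1 + v 1 = z 1 + v' 1 := congrFun e 1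
        have e2 : c + v 2 + t * mu0 (z 0 + v 0) = c + v' 2 + t * mu0 (z 0 + v' 0) := congrFun e 2
        rw [e0] at e2
        ext i; fin_cases i
        · exact add_left_cancel e0
        · exact add_left_cancel e1
        · exact add_left_cancel (add_right_cancel e2)
      have hN := tσ (inter_mem (inter_mem (ball_mem_nhds z hr)
        (ball_mem_nhds z (show (0 : ℝ) < 1 / 2 by norm_num)))
        (h.cont.continuousAt (oU.mem_nhds ((mem_UU h).2 ⟨hz.1.2, hz.2⟩))))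
      rw [← σ0]
      refine fl_of_germ (Φ := fun v => H (σ v)) hN
        (k.comp (pσ.mono (subset_univ _)) fun v hv => hv.1.1)
        (fun v hv v' hv' e => iσ (injOn_ball h z hv.1.2 hv'.1.2 e)) fun v hv => ?_
      have hU : H (σ v) ∈ UU H c δ := hv.2
      simp only [mem_ofPred_eq, hU, true_and, s0, s2]
      simp only [σ, Matrix.cons_val_zero, Matrix.cons_val]
      constructor <;> constructor <;> intro q <;> linarith)
  refine ⟨A, B, min (1 / 8) (δ / 2), h1, lt_min (by norm_num) (half_pos hδ),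
    (min_le_left _ _).trans (by norm_num), (min_le_right _ _).trans_lt (half_lt_self hδ),
    fun z k1 k2 k3 => ?_, fun z k => ?_, fun z k => ?_⟩
  · have k4 : 7 / 8 ≤ |z 0| := by linarith [min_le_left (1 / 8 : ℝ) (δ / 2)]
    have := h5 (H z) ((mem_UU h).2 ⟨k2, k3⟩) fun q => by
      have : |z 0| < 3 / 4 := ((mem_Im h).1 (h3 q)).1
      linarith
    have e : mu0 (z 0) = 0 := max_eq_left ((min_le_right _ _).trans (by linarith))
    simpa only [s0, s2, e, mul_zero, sub_nonneg, sub_nonpos] using this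
  · have := h6 _ k
    simp only [s2] at this
    linarith [min_le_right (1 / 8 : ℝ) (δ / 2)]
  · have := h7 _ k
    simp only [s2] at this
    linarith [min_le_right (1 / 8 : ℝ) (δ / 2)]

/-- the collar of the boundary -/
theorem Std.collar (h : Per {1} H) (s : Spl (UU H c δ) A B) (d : Std H c δ ε A B) {z : V}
    (hz : 1 - ε ≤ |z 0|) :
    H z ∈ A ∩ B ∪ (GG H c (-1) ∪ GG H c 1) ↔ |z 0| ≤ 1 ∧ z 2 = c := by
  constructor
  · rintro (k | k)
    · obtain ⟨k1, k2⟩ := (mem_UU h).1 (s.subA k.1)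
      obtain ⟨k3, k4⟩ := d.wall z hz k1 k2
      exact ⟨k1.le, le_antisymm (k4.1 k.2) (k3.1 k.1)⟩
    · exact ⟨((mem_Gam h).1 k).1.le, ((mem_Gam h).1 k).2⟩
  · rintro ⟨k1, k2⟩
    rcases k1.eq_or_lt with k | k
    · exact Or.inr ((mem_Gam h).2 ⟨k, k2⟩)
    · obtain ⟨k3, k4⟩ := d.wall z hz k (by rw [k2, sub_self, abs_zero]; linarith [d.pos, d.lt])
      exact Or.inl ⟨k3.2 k2.ge, k4.2 k2.le⟩

theorem dj_UU (h : Per {1} H) : Disjoint (UU H c δ) (GG H c (-1) ∪ GG H c 1) := by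
  rw [disjoint_left]
  intro y h1 h2
  obtain ⟨z, rfl⟩ := Im_sub h1
  exact ((mem_UU h).1 h1).1.ne ((mem_Gam h).1 h2).1

theorem sub_range (s : Spl (UU H c δ) A B) : A ∩ B ∪ (GG H c (-1) ∪ GG H c 1) ⊆ range H :=
  union_subset (fun _ k => Im_sub (s.subA k.1)) (union_subset Im_sub Im_sub)

theorem st_of (h : Per {1} H) (hp : LocPL H (rim {0})) (s : Spl (UU H c δ) A B)
    (d : Std H c δ ε A B) : St (UU H c δ) (GG H c (-1) ∪ GG H c 1) A B := by
  have e0 := d.pos
  have e1 := d.le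
  have e2 := d.lt
  refine ⟨s, dj_UU h, ?_, ?_⟩
  · have k1 := ((isCompact_Im h ((isCompact_Icc (a := -(1 - ε)) (b := 1 - ε)).prod
      (isCompact_Icc (a := c - δ + ε) (b := c + δ - ε)))).diff s.clA).diff s.clB
    have k2 := isCompact_Im h (((isCompact_Icc (a := (-1 : ℝ)) (b := 1)).inter_right
      (isClosed_le (f := fun _ => 1 - ε) continuous_const continuous_abs)).prod
      (isCompact_singleton (x := c)))
    convert k1.union k2 using 1
    ext y
    constructor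
    · intro hy
      obtain ⟨z, rfl⟩ := sub_range s hy
      by_cases q : 1 - ε ≤ |z 0|
      · obtain ⟨q1, q2⟩ := (d.collar h s q).1 hy
        exact Or.inr ((mem_Im h).2 ⟨⟨abs_le.1 q1, q⟩, q2⟩)
      · have hS : H z ∈ A ∩ B := hy.resolve_right fun k => q (by
          rw [((mem_Gam h).1 k).1]; linarith)
        exact Or.inl ⟨⟨(mem_Im h).2 ⟨abs_le.1 (not_le.1 q).le, d.lowA z hS.1, d.upB z hS.2⟩,
          fun k => k.2 hS.1⟩, fun k => k.2 hS.2⟩
    · rintro (⟨⟨k1, k2⟩, k3⟩ | k)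
      · obtain ⟨z, rfl⟩ := Im_sub k1
        obtain ⟨q1, q2⟩ := (mem_Im h).1 k1
        have hU : H z ∈ UU H c δ := (mem_UU h).2 ⟨abs_lt.2 ⟨by linarith [q1.1], by linarith [q1.2]⟩,
          abs_lt.2 ⟨by linarith [q2.1], by linarith [q2.2]⟩⟩
        exact Or.inl ⟨by_contra fun q => k2 ⟨hU, q⟩, by_contra fun q => k3 ⟨hU, q⟩⟩
      · obtain ⟨z, rfl⟩ := Im_sub k
        obtain ⟨q1, q2⟩ := (mem_Im h).1 k
        exact (d.collar h s q1.2).2 ⟨abs_le.2 q1.1, q2⟩
  · intro x hx W hW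
    obtain ⟨z, rfl⟩ := sub_range s (Or.inr hx)
    obtain ⟨z0, z2⟩ := (mem_Gam h).1 hx
    have zz : z 0 * z 0 = 1 := by rw [← abs_mul_abs_self, z0, mul_one]
    obtain ⟨r0, hr0, k⟩ := hp z ⟨0, Finset.mem_singleton_self _, by rw [z0]; norm_num⟩
    obtain ⟨ρ, hρ, hb⟩ := Metric.nhds_basis_closedBall.mem_iff.1 (inter_mem (inter_mem
      (ball_mem_nhds z hr0) (ball_mem_nhds z e0)) (h.cont.continuousAt hW))
    obtain ⟨r, hr, rfl⟩ : ∃ r, 0 < r ∧ ρ = 2 * r := ⟨ρ / 2, half_pos hρ, by ring⟩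
    let ψ : P → V := fun y => ![z 0 * (1 - r + r * y 0), z 1 + r * y 1, c]
    have pψ : PLOn ψ (cube 2) := pl_vec3 (pl_mul _ (pl_add (plOn_const _ _)
      (pl_mul _ (pl_coord 0 _)))) (pl_add (plOn_const _ _) (pl_mul _ (pl_coord 1 _)))
      (plOn_const _ _)
    have mψ : ∀ y ∈ cube 2, ψ y ∈ closedBall z (2 * r) := by
      intro y hy
      have y0 := abs_le.1 (mem_cube.1 hy 0)
      have y1 := mem_cube.1 hy 1
      rw [mem_closedBall, dist_eq_norm, pi_norm_le_iff_of_nonneg hρ.le]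
      intro i
      fin_cases i
      · show |z 0 * (1 - r + r * y 0) - z 0| ≤ _
        rw [show z 0 * (1 - r + r * y 0) - z 0 = z 0 * (r * (y 0 - 1)) by ring, abs_mul, z0,
          one_mul, abs_le]
        constructor <;> nlinarith
      · show |z 1 + r * y 1 - z 1| ≤ _
        rw [add_sub_cancel_left, abs_mul, abs_of_pos hr]
        nlinarith
      · show |c - z 2| ≤ _
        rw [z2, sub_self, abs_zero]; exact hρ.le
    have near : ∀ x ∈ ball z ε, 1 - ε ≤ |x 0| ∧ |x 0| = z 0 * x 0 := by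
      intro x hx
      have k1 : |x 0 - z 0| < ε := (norm_le_pi_norm (x - z) 0).trans_lt (mem_ball_iff_norm.1 hx)
      rw [abs_lt] at k1
      rcases (abs_eq zero_le_one).1 z0 with q | q <;> rw [q] at k1 ⊢
      · rw [abs_of_pos (by linarith)]; exact ⟨by linarith, by ring⟩
      · rw [abs_of_neg (by linarith)]; exact ⟨by linarith, by ring⟩
    have iψ : InjOn (fun y => H (ψ y)) (cube 2) := by
      intro y hy y' hy' e
      have e' := injOn_ball h z (ball_subset_ball (by linarith) (hb (mψ y hy)).1.2)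
        (ball_subset_ball (by linarith) (hb (mψ y' hy')).1.2) e
      have a0 : z 0 * (1 - r + r * y 0) = z 0 * (1 - r + r * y' 0) := congrFun e' 0
      have a1 : z 1 + r * y 1 = z 1 + r * y' 1 := congrFun e' 1
      have z1 : z 0 ≠ 0 := by rintro q; rw [q] at zz; simp at zz
      ext i; fin_cases i
      · exact mul_left_cancel₀ hr.ne' (add_left_cancel (mul_left_cancel₀ z1 a0))
      · exact mul_left_cancel₀ hr.ne' (add_left_cancel a1)
    refine ⟨_, _, isBall_of_injOn (k.comp pψ fun y hy => (hb (mψ y hy)).1.1) iψ, ?_, ?_, ?_⟩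
    · rintro _ ⟨y, hy, rfl⟩
      obtain ⟨k1, k2⟩ := near _ (hb (mψ y hy)).1.2
      refine ⟨(d.collar h s k1).2 ⟨?_, rfl⟩, (hb (mψ y hy)).2⟩
      rw [k2]
      show z 0 * (z 0 * (1 - r + r * y 0)) ≤ 1
      rw [← mul_assoc, zz]
      nlinarith [abs_le.1 (mem_cube.1 hy 0)]
    · filter_upwards [mem_nhdsWithin_of_mem_nhds (h.opn.image_mem_nhds (inter_mem
        (ball_mem_nhds z hr) (ball_mem_nhds z e0))), self_mem_nhdsWithin]
      rintro _ ⟨x, hx, rfl⟩ hS
      obtain ⟨k1, k2⟩ := near x hx.2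
      obtain ⟨k3, k4⟩ := (d.collar h s k1).1 hS
      have k5 : |x 0 - z 0| < r := (norm_le_pi_norm (x - z) 0).trans_lt (mem_ball_iff_norm.1 hx.1)
      have k6 : |x 1 - z 1| < r := (norm_le_pi_norm (x - z) 1).trans_lt (mem_ball_iff_norm.1 hx.1)
      have k7 : |z 0 * x 0 - 1| < r := by
        rwa [← zz, ← mul_sub, abs_mul, z0, one_mul]
      refine ⟨![(z 0 * x 0 - 1 + r) / r, (x 1 - z 1) / r], mem_cube.2 fun i => ?_, congrArg H ?_⟩
      · fin_cases i
        · show |(z 0 * x 0 - 1 + r) / r| ≤ 1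
          rw [abs_div, abs_of_pos hr, div_le_one hr, abs_le]
          constructor <;> linarith [(abs_lt.1 k7).1]
        · show |(x 1 - z 1) / r| ≤ 1
          rw [abs_div, abs_of_pos hr, div_le_one hr]; exact k6.le
      · ext i; fin_cases i
        · show z 0 * (1 - r + r * ((z 0 * x 0 - 1 + r) / r)) = x 0
          rw [mul_div_cancel₀ _ hr.ne']
          linear_combination (x 0) * zz
        · show z 1 + r * ((x 1 - z 1) / r) = x 1
          rw [mul_div_cancel₀ _ hr.ne']; ring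
        · exact k4.symm
    · refine ⟨![1, 0], mem_sph2.2 ⟨mem_cube.2 fun i => by fin_cases i <;> simp, by simp⟩,
        congrArg H ?_⟩
      ext i; fin_cases i <;> simp [ψ, z2]

/-- a change on a compact set keeps the standard form -/
theorem Std.off (h : Per {1} H) (d : Std H c δ ε A B) {A' B' K : Set V} (hK : IsCompact K)
    (hKU : K ⊆ UU H c δ) (e : ∀ x, x ∉ K → ((x ∈ A' ↔ x ∈ A) ∧ (x ∈ B' ↔ x ∈ B))) :
    ∃ ε', Std H c δ ε' A' B' := by
  have hr : K ⊆ range H := fun _ k => Im_sub (hKU k)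
  obtain ⟨m, hm, hmK⟩ : ∃ m > 0, ∀ z, H z ∈ K → m ≤ min (1 - |z 0|) (δ - |z 2 - c|) := by
    have hc : ContinuousOn (fun y => min (1 - |sec H y 0|) (δ - |sec H y 2 - c|)) K :=
      (continuousOn_const.sub ((cont_sec h n0).mono hr).abs).inf
        (continuousOn_const.sub (((cont_sec h n2).mono hr).sub continuousOn_const).abs)
    rcases K.eq_empty_or_nonempty with rfl | hne
    · exact ⟨1, one_pos, fun _ k => k.elim⟩
    · obtain ⟨x, hx, hmin⟩ := hK.exists_isMinOn hne hc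
      obtain ⟨z, rfl⟩ := hr hx
      obtain ⟨k1, k2⟩ := (mem_UU h).1 (hKU hx)
      refine ⟨min (1 - |z 0|) (δ - |z 2 - c|), lt_min (by linarith) (by linarith), fun w hw => ?_⟩
      simpa only [sec_coord h _ n0, sec_coord h _ n2] using isMinOn_iff.1 hmin _ hw
  have l1 := min_le_left ε (m / 2)
  have l2 := min_le_right ε (m / 2)
  refine ⟨min ε (m / 2), lt_min d.pos (half_pos hm), l1.trans d.le, l1.trans_lt d.lt,
    fun z k1 k2 k3 => ?_, fun z k => ?_, fun z k => ?_⟩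
  · have q : H z ∉ K := fun q => by linarith [(le_min_iff.1 (hmK z q)).1]
    rw [(e _ q).1, (e _ q).2]
    exact d.wall z (by linarith) k2 k3
  · by_cases q : H z ∈ K
    · linarith [(le_min_iff.1 (hmK z q)).2, neg_abs_le (z 2 - c)]
    · linarith [d.lowA z ((e _ q).1.1 k)]
  · by_cases q : H z ∈ K
    · linarith [(le_min_iff.1 (hmK z q)).2, le_abs_self (z 2 - c)]
    · linarith [d.upB z ((e _ q).2.1 k)]

/-- **the incompressible splitting** -/
theorem exists_inc (hI : IncStmt) (hL : LevStmt) (h : Per {1} H) (hp : LocPL H (rim {0})) (c : ℝ)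
    (hδ : 0 < δ) : ∃ A B ε, St (UU H c δ) (GG H c (-1) ∪ GG H c 1) A B ∧ Std H c δ ε A B ∧
      ∀ x (p : Path x x), (∀ t, p t ∈ A ∩ B) → NH (UU H c δ) p → NH (A ∩ B) p := by
  obtain ⟨A, B, ε, s, d⟩ := exists_spl hL h hp c hδ
  have ess : ∀ s : ℝ, ¬ Tr (GG H c s) fun x y => par 1 (latc H x y) := fun s =>
    not_tr_par h (Finset.mem_singleton_self _) (g := fun t => ![s, t, c]) (by fun_prop)
      (fun t => (mem_GG h).2 ⟨rfl, rfl⟩)
      ((h.fib _ _).2 (mem_lat1.2 ⟨by simp, ⟨-1, by simp⟩, by simp⟩)) (by simp)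
  have co : Coc (UU H c δ ∪ (GG H c (-1) ∪ GG H c 1)) fun x y => par 1 (latc H x y) :=
    (coc_par h (Finset.mem_singleton_self _)).mono
      (union_subset Im_sub (union_subset Im_sub Im_sub))
  obtain ⟨A', B', K, k1, -, k2, k3, k4, k5⟩ := hI (UU H c δ) (GG H c (-1) ∪ GG H c 1)
    (fun _ _ => True)
    (by
      rintro x (hx | hx)
      · exact ⟨_, subset_union_left, hx, conn_GG h _, _, co, ess _⟩
      · exact ⟨_, subset_union_right, hx, conn_GG h _, _, co, ess _⟩)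
    (fun _ _ _ _ _ _ _ _ => trivial) (fun _ _ _ _ _ _ _ _ => trivial) A B (st_of h hp s d) trivial
  obtain ⟨ε', d'⟩ := d.off h k2 k3 k4
  exact ⟨A', B', ε', k1, d', k5⟩

end Crest.Agent.X212.Rg3
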